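import Mathlib

namespace Vale.Agent.P042

/-- `SqUnit w A h`: there are `A` residues below `w ^ 2` carrying ranks below `h`, such that the
rank strictly increases along every difference that is a square modulo `w ^ 2`. -/
def SqUnit (w A h : ℕ) : Prop :=
  ∃ (V : Finset ℕ) (φ : ℕ → ℕ), V.card = A ∧ (∀ v ∈ V, v < w ^ 2) ∧ (∀ v ∈ V, φ v < h) ∧
    ∀ u ∈ V, ∀ v ∈ V, u ≠ v → ∀ z : ℤ, ((w : ℤ) ^ 2 ∣ (v : ℤ) - u - z ^ 2) → φ u < φ v

theorem SqUnit.lex {w₁ A₁ h₁ w₂ A₂ h₂ : ℕ} (hw₁ : 0 < w₁) (H₁ : SqUnit w₁ A₁ h₁)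
    (H₂ : SqUnit w₂ A₂ h₂) : SqUnit (w₁ * w₂) (A₁ * A₂) (h₁ * h₂) := by
  obtain ⟨V₁, φ₁, c₁, l₁, r₁, m₁⟩ := H₁
  obtain ⟨V₂, φ₂, c₂, l₂, r₂, m₂⟩ := H₂
  have hq : 0 < w₁ ^ 2 := by positivity
  have key : ∀ a ∈ V₁, ∀ b : ℕ, (a + w₁ ^ 2 * b) % w₁ ^ 2 = a ∧ (a + w₁ ^ 2 * b) / w₁ ^ 2 = b := by
    intro a ha b
    have := l₁ a ha
    constructor
    · rw [Nat.add_mul_mod_self_left, Nat.mod_eq_of_lt this]
    · rw [Nat.add_mul_div_left _ _ hq, Nat.div_eq_of_lt this, Nat.zero_add]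
  refine ⟨(V₁ ×ˢ V₂).image (fun p => p.1 + w₁ ^ 2 * p.2),
    fun x => φ₁ (x % w₁ ^ 2) * h₂ + φ₂ (x / w₁ ^ 2), ?_, ?_, ?_, ?_⟩
  · rw [Finset.card_image_of_injOn, Finset.card_product, c₁, c₂]
    intro p hp q hq' h
    simp only [Finset.coe_product, Set.mem_prod, Finset.mem_coe] at hp hq'
    simp only at h
    have k1 := key p.1 hp.1 p.2
    have k2 := key q.1 hq'.1 q.2
    rw [h] at k1
    exact Prod.ext (k1.1.symm.trans k2.1) (k1.2.symm.trans k2.2)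
  · intro v hv
    simp only [Finset.mem_image, Finset.mem_product] at hv
    obtain ⟨p, ⟨hp1, hp2⟩, rfl⟩ := hv
    have h1 := l₁ _ hp1
    have h2 := l₂ _ hp2
    calc p.1 + w₁ ^ 2 * p.2 < w₁ ^ 2 + w₁ ^ 2 * p.2 := by omega
      _ = w₁ ^ 2 * (p.2 + 1) := by ring
      _ ≤ w₁ ^ 2 * w₂ ^ 2 := Nat.mul_le_mul_left _ h2
      _ = (w₁ * w₂) ^ 2 := by ring
  · intro v hv
    simp only [Finset.mem_image, Finset.mem_product] at hv
    obtain ⟨p, ⟨hp1, hp2⟩, rfl⟩ := hv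
    obtain ⟨e1, e2⟩ := key p.1 hp1 p.2
    simp only [e1, e2]
    have h1 := r₁ _ hp1
    have h2 := r₂ _ hp2
    calc φ₁ p.1 * h₂ + φ₂ p.2 < φ₁ p.1 * h₂ + h₂ := by omega
      _ = (φ₁ p.1 + 1) * h₂ := by ring
      _ ≤ h₁ * h₂ := Nat.mul_le_mul_right _ h1
  · intro u hu v hv huv z hz
    simp only [Finset.mem_image, Finset.mem_product] at hu hv
    obtain ⟨p, ⟨hp1, hp2⟩, rfl⟩ := hu
    obtain ⟨q, ⟨hq1, hq2⟩, rfl⟩ := hv
    obtain ⟨e1, e2⟩ := key p.1 hp1 p.2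
    obtain ⟨e3, e4⟩ := key q.1 hq1 q.2
    simp only [e1, e2, e3, e4]
    push_cast at hz
    by_cases h1 : p.1 = q.1
    · have h2 : p.2 ≠ q.2 := by
        intro h2; apply huv; rw [h1, h2]
      -- w₁ divides z
      have hd : (w₁ : ℤ) ^ 2 ∣ z ^ 2 := by
        have h3 : (w₁ : ℤ) ^ 2 ∣ (q.1 + (w₁ : ℤ) ^ 2 * q.2) - (p.1 + (w₁ : ℤ) ^ 2 * p.2) - z ^ 2 :=
          Dvd.dvd.trans ⟨(w₂ : ℤ) ^ 2, by ring⟩ hz
        have h4 : (w₁ : ℤ) ^ 2 ∣ (q.1 + (w₁ : ℤ) ^ 2 * q.2) - (p.1 + (w₁ : ℤ) ^ 2 * p.2) := by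
          rw [h1]
          exact ⟨(q.2 : ℤ) - p.2, by ring⟩
        exact (dvd_sub_right h4).1 h3
      have hd' : (w₁ : ℤ) ∣ z := (Int.pow_dvd_pow_iff two_ne_zero).1 hd
      obtain ⟨y, rfl⟩ := hd'
      have h5 : (w₂ : ℤ) ^ 2 ∣ (q.2 : ℤ) - p.2 - y ^ 2 := by
        have h6 : (w₁ : ℤ) ^ 2 * (w₂ : ℤ) ^ 2 ∣ (w₁ : ℤ) ^ 2 * ((q.2 : ℤ) - p.2 - y ^ 2) := by
          have : (w₁ : ℤ) ^ 2 * ((q.2 : ℤ) - p.2 - y ^ 2) =
            (q.1 + (w₁ : ℤ) ^ 2 * q.2) - (p.1 + (w₁ : ℤ) ^ 2 * p.2) - (w₁ * y) ^ 2 := by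
            rw [h1]; ring
          rw [this]
          exact Dvd.dvd.trans (Dvd.intro 1 (by ring)) hz
        exact (mul_dvd_mul_iff_left (by positivity)).1 h6
      have := m₂ _ hp2 _ hq2 h2 y h5
      rw [h1]
      omega
    · have h3 : (w₁ : ℤ) ^ 2 ∣ (q.1 : ℤ) - p.1 - z ^ 2 := by
        have h4 : (w₁ : ℤ) ^ 2 ∣ (q.1 + (w₁ : ℤ) ^ 2 * q.2) - (p.1 + (w₁ : ℤ) ^ 2 * p.2) - z ^ 2 :=
          Dvd.dvd.trans ⟨(w₂ : ℤ) ^ 2, by ring⟩ hz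
        have h5 : (q.1 : ℤ) - p.1 - z ^ 2 =
          ((q.1 + (w₁ : ℤ) ^ 2 * q.2) - (p.1 + (w₁ : ℤ) ^ 2 * p.2) - z ^ 2) -
            (w₁ : ℤ) ^ 2 * ((q.2 : ℤ) - p.2) := by ring
        rw [h5]
        exact dvd_sub h4 (Dvd.intro _ rfl)
      have h6 := m₁ _ hp1 _ hq1 h1 z h3
      have h7 := r₂ _ hp2
      calc φ₁ p.1 * h₂ + φ₂ p.2 < φ₁ p.1 * h₂ + h₂ := by omega
        _ = (φ₁ p.1 + 1) * h₂ := by ring
        _ ≤ φ₁ q.1 * h₂ := Nat.mul_le_mul_right _ h6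
        _ ≤ φ₁ q.1 * h₂ + φ₂ q.2 := Nat.le_add_right _ _

theorem SqUnit.one : SqUnit 1 1 1 := by
  refine ⟨{0}, fun _ => 0, by simp, by simp, by simp, ?_⟩
  intro u hu v hv huv
  simp only [Finset.mem_singleton] at hu hv
  exact absurd (hu.trans hv.symm) huv

theorem SqUnit.pow {w A h : ℕ} (hw : 0 < w) (H : SqUnit w A h) (a : ℕ) :
    SqUnit (w ^ a) (A ^ a) (h ^ a) := by
  induction a with
  | zero => simpa using SqUnit.one
  | succ n ih =>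
    simp only [pow_succ]
    exact ih.lex (by positivity) H

theorem SqUnit.crt {w₁ A₁ h₁ w₂ A₂ h₂ : ℕ} (hw₁ : 0 < w₁) (hw₂ : 0 < w₂)
    (hc : Nat.Coprime w₁ w₂) (H₁ : SqUnit w₁ A₁ h₁)
    (H₂ : SqUnit w₂ A₂ h₂) : SqUnit (w₁ * w₂) (A₁ * A₂) (h₁ + h₂) := by
  obtain ⟨V₁, φ₁, c₁, l₁, r₁, m₁⟩ := H₁
  obtain ⟨V₂, φ₂, c₂, l₂, r₂, m₂⟩ := H₂
  have hc2 : Nat.Coprime (w₁ ^ 2) (w₂ ^ 2) := Nat.Coprime.pow _ _ hc
  have hq1 : 0 < w₁ ^ 2 := by positivity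
  have hq2 : 0 < w₂ ^ 2 := by positivity
  let f : ℕ × ℕ → ℕ := fun p => (Nat.chineseRemainder hc2 p.1 p.2 : ℕ)
  have key : ∀ p : ℕ × ℕ, p.1 ∈ V₁ → p.2 ∈ V₂ → f p % w₁ ^ 2 = p.1 ∧ f p % w₂ ^ 2 = p.2 ∧
      f p < w₁ ^ 2 * w₂ ^ 2 := by
    intro p hp1 hp2
    have h := (Nat.chineseRemainder hc2 p.1 p.2).2
    refine ⟨?_, ?_, Nat.chineseRemainder_lt_mul hc2 _ _ hq1.ne' hq2.ne'⟩
    · exact Eq.trans h.1 (Nat.mod_eq_of_lt (l₁ _ hp1))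
    · exact Eq.trans h.2 (Nat.mod_eq_of_lt (l₂ _ hp2))
  refine ⟨(V₁ ×ˢ V₂).image f, fun x => φ₁ (x % w₁ ^ 2) + φ₂ (x % w₂ ^ 2), ?_, ?_, ?_, ?_⟩
  · rw [Finset.card_image_of_injOn, Finset.card_product, c₁, c₂]
    intro p hp q hq' h
    simp only [Finset.coe_product, Set.mem_prod, Finset.mem_coe] at hp hq'
    have k1 := key p hp.1 hp.2
    have k2 := key q hq'.1 hq'.2
    rw [h] at k1
    exact Prod.ext (k1.1.symm.trans k2.1) (k1.2.1.symm.trans k2.2.1)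
  · intro v hv
    simp only [Finset.mem_image, Finset.mem_product] at hv
    obtain ⟨p, ⟨hp1, hp2⟩, rfl⟩ := hv
    have := (key p hp1 hp2).2.2
    calc f p < w₁ ^ 2 * w₂ ^ 2 := this
      _ = (w₁ * w₂) ^ 2 := by ring
  · intro v hv
    simp only [Finset.mem_image, Finset.mem_product] at hv
    obtain ⟨p, ⟨hp1, hp2⟩, rfl⟩ := hv
    obtain ⟨e1, e2, -⟩ := key p hp1 hp2
    simp only [e1, e2]
    have h1 := r₁ _ hp1
    have h2 := r₂ _ hp2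
    omega
  · intro u hu v hv huv z hz
    simp only [Finset.mem_image, Finset.mem_product] at hu hv
    obtain ⟨p, ⟨hp1, hp2⟩, rfl⟩ := hu
    obtain ⟨q, ⟨hq1', hq2'⟩, rfl⟩ := hv
    obtain ⟨e1, e2, -⟩ := key p hp1 hp2
    obtain ⟨e3, e4, -⟩ := key q hq1' hq2'
    simp only [e1, e2, e3, e4]
    push_cast at hz
    have d1 : (w₁ : ℤ) ^ 2 ∣ (q.1 : ℤ) - p.1 - z ^ 2 := by
      have h1 : (w₁ : ℤ) ^ 2 ∣ (f q : ℤ) - f p - z ^ 2 :=
        Dvd.dvd.trans ⟨(w₂ : ℤ) ^ 2, by ring⟩ hz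
      have h2 : (w₁ : ℤ) ^ 2 ∣ (f q : ℤ) - q.1 := by
        rw [← e3]; push_cast; exact Int.dvd_self_sub_emod
      have h3 : (w₁ : ℤ) ^ 2 ∣ (f p : ℤ) - p.1 := by
        rw [← e1]; push_cast; exact Int.dvd_self_sub_emod
      have : (q.1 : ℤ) - p.1 - z ^ 2 = ((f q : ℤ) - f p - z ^ 2) - ((f q : ℤ) - q.1) +
        ((f p : ℤ) - p.1) := by ring
      rw [this]
      exact dvd_add (dvd_sub h1 h2) h3
    have d2 : (w₂ : ℤ) ^ 2 ∣ (q.2 : ℤ) - p.2 - z ^ 2 := by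
      have h1 : (w₂ : ℤ) ^ 2 ∣ (f q : ℤ) - f p - z ^ 2 :=
        Dvd.dvd.trans ⟨(w₁ : ℤ) ^ 2, by ring⟩ hz
      have h2 : (w₂ : ℤ) ^ 2 ∣ (f q : ℤ) - q.2 := by
        rw [← e4]; push_cast; exact Int.dvd_self_sub_emod
      have h3 : (w₂ : ℤ) ^ 2 ∣ (f p : ℤ) - p.2 := by
        rw [← e2]; push_cast; exact Int.dvd_self_sub_emod
      have : (q.2 : ℤ) - p.2 - z ^ 2 = ((f q : ℤ) - f p - z ^ 2) - ((f q : ℤ) - q.2) +
        ((f p : ℤ) - p.2) := by ring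
      rw [this]
      exact dvd_add (dvd_sub h1 h2) h3
    by_cases h1 : p.1 = q.1
    · have h2 : p.2 ≠ q.2 := by
        intro h2; apply huv; rw [Prod.ext h1 h2]
      have := m₂ _ hp2 _ hq2' h2 z d2
      rw [h1]; omega
    · have h3 := m₁ _ hp1 _ hq1' h1 z d1
      by_cases h2 : p.2 = q.2
      · rw [h2]; omega
      · have := m₂ _ hp2 _ hq2' h2 z d2
        omega

/-- From a squarefree modulus. -/
theorem SqUnit.ofSquarefree (M h : ℕ) (hM : Squarefree M) (V₀ : Finset ℕ) (φ₀ : ℕ → ℕ)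
    (hlt : ∀ v ∈ V₀, v < M) (hφ : ∀ v ∈ V₀, φ₀ v < h)
    (H : ∀ u ∈ V₀, ∀ v ∈ V₀, ∀ z < M, (v + (M - u)) % M = z ^ 2 % M → u = v ∨ φ₀ u < φ₀ v) :
    SqUnit M (V₀.card * M) h := by
  have hM0 : 0 < M := Nat.pos_of_ne_zero hM.ne_zero
  have hMz : (0 : ℤ) < M := by exact_mod_cast hM0
  have key : ∀ a ∈ V₀, ∀ b : ℕ, (a + M * b) % M = a ∧ (a + M * b) / M = b := by
    intro a ha b
    have := hlt a ha
    constructor
    · rw [Nat.add_mul_mod_self_left, Nat.mod_eq_of_lt this]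
    · rw [Nat.add_mul_div_left _ _ hM0, Nat.div_eq_of_lt this, Nat.zero_add]
  refine ⟨(V₀ ×ˢ Finset.range M).image (fun p => p.1 + M * p.2), fun x => φ₀ (x % M), ?_, ?_, ?_, ?_⟩
  · rw [Finset.card_image_of_injOn, Finset.card_product, Finset.card_range]
    intro p hp q hq' h
    simp only [Finset.coe_product, Set.mem_prod, Finset.mem_coe] at hp hq'
    simp only at h
    have k1 := key p.1 hp.1 p.2
    have k2 := key q.1 hq'.1 q.2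
    rw [h] at k1
    exact Prod.ext (k1.1.symm.trans k2.1) (k1.2.symm.trans k2.2)
  · intro v hv
    simp only [Finset.mem_image, Finset.mem_product, Finset.mem_range] at hv
    obtain ⟨p, ⟨hp1, hp2⟩, rfl⟩ := hv
    have h1 := hlt _ hp1
    calc p.1 + M * p.2 < M + M * p.2 := by omega
      _ = M * (p.2 + 1) := by ring
      _ ≤ M * M := Nat.mul_le_mul_left _ hp2
      _ = M ^ 2 := by ring
  · intro v hv
    simp only [Finset.mem_image, Finset.mem_product, Finset.mem_range] at hv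
    obtain ⟨p, ⟨hp1, hp2⟩, rfl⟩ := hv
    obtain ⟨e1, e2⟩ := key p.1 hp1 p.2
    simp only [e1]
    exact hφ _ hp1
  · intro u hu v hv huv z hz
    simp only [Finset.mem_image, Finset.mem_product, Finset.mem_range] at hu hv
    obtain ⟨p, ⟨hp1, hp2⟩, rfl⟩ := hu
    obtain ⟨q, ⟨hq1, hq2⟩, rfl⟩ := hv
    obtain ⟨e1, e2⟩ := key p.1 hp1 p.2
    obtain ⟨e3, e4⟩ := key q.1 hq1 q.2
    simp only [e1, e3]
    push_cast at hz
    have hmod : (M : ℤ) ∣ (q.1 : ℤ) - p.1 - z ^ 2 := by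
      have h4 : (M : ℤ) ∣ (q.1 + (M : ℤ) * q.2) - (p.1 + (M : ℤ) * p.2) - z ^ 2 :=
        Dvd.dvd.trans ⟨(M : ℤ), by ring⟩ hz
      have h5 : (q.1 : ℤ) - p.1 - z ^ 2 =
          ((q.1 + (M : ℤ) * q.2) - (p.1 + (M : ℤ) * p.2) - z ^ 2) -
            (M : ℤ) * ((q.2 : ℤ) - p.2) := by ring
      rw [h5]
      exact dvd_sub h4 (Dvd.intro _ rfl)
    by_cases h1 : p.1 = q.1
    · exfalso
      have h2 : p.2 ≠ q.2 := by
        intro h2; apply huv; rw [h1, h2]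
      have hz2 : (M : ℤ) ∣ z ^ 2 := by
        rw [h1, sub_self, zero_sub, dvd_neg] at hmod
        exact hmod
      have hMzz : Squarefree (M : ℤ) := Int.squarefree_natCast.2 hM
      have hz3 : (M : ℤ) ∣ z := (hMzz.dvd_pow_iff_dvd two_ne_zero).1 hz2
      obtain ⟨y, rfl⟩ := hz3
      have h6 : (M : ℤ) * M ∣ (M : ℤ) * ((q.2 : ℤ) - p.2) := by
        have : (M : ℤ) * ((q.2 : ℤ) - p.2) =
          ((q.1 + (M : ℤ) * q.2) - (p.1 + (M : ℤ) * p.2) - (M * y) ^ 2) + M * M * (y ^ 2) := by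
          rw [h1]; ring
        rw [this]
        refine dvd_add ?_ (Dvd.intro _ rfl)
        rw [← sq]; exact hz
      have h7 : (M : ℤ) ∣ (q.2 : ℤ) - p.2 := (mul_dvd_mul_iff_left hMz.ne').1 h6
      have h8 : |(q.2 : ℤ) - p.2| < M := by
        rw [abs_lt]; constructor <;> omega
      have h9 := Int.eq_zero_of_abs_lt_dvd h7 h8
      apply h2; omega
    · -- reduce z modulo M
      have hzM : (z % M).toNat < M := by
        have := Int.emod_lt_of_pos z hMz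
        have := Int.emod_nonneg z hMz.ne'
        omega
      have hzc : (((z % M).toNat : ℕ) : ℤ) = z % M := Int.toNat_of_nonneg (Int.emod_nonneg z hMz.ne')
      have hall : (q.1 + (M - p.1)) % M = (z % M).toNat ^ 2 % M := by
        have hlt1 := hlt _ hp1
        have hh : ((q.1 + (M - p.1) : ℕ) : ℤ) ≡ (((z % M).toNat ^ 2 : ℕ) : ℤ) [ZMOD M] := by
          rw [Int.modEq_iff_dvd]
          push_cast [hzc, Nat.cast_sub hlt1.le]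
          have e : z % M = z - M * (z / M) := Int.emod_def z M
          rw [e]
          have e5 : (z - (M : ℤ) * (z / M)) ^ 2 - ((q.1 : ℤ) + (M - p.1)) =
            -((q.1 : ℤ) - p.1 - z ^ 2) + (M : ℤ) * (-2 * z * (z / M) + M * (z / M) ^ 2 - 1) := by
            ring
          rw [e5]
          exact dvd_add ((dvd_neg).2 hmod) (Dvd.intro _ rfl)
        exact Int.natCast_modEq_iff.1 hh
      rcases H p.1 hp1 q.1 hq1 (z % M).toNat hzM hall with h | h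
      · exact absurd h h1
      · exact h

end Vale.Agent.P042
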