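import Mathlib
import Vale.Agent.P042.Units

namespace Vale.Agent.P042

theorem SqUnit.toSet {w A h : ℕ} (hw : 0 < w) (H : SqUnit w A h) :
    ∃ S : Finset ℕ, S ⊆ Finset.Icc 1 (w ^ 2 * h) ∧ S.card = A ∧
      ∀ a ∈ S, ∀ b ∈ S, ∀ n : ℤ, n ≠ 0 → (a : ℤ) - b ≠ n ^ 2 := by
  obtain ⟨V, φ, c, l, r, m⟩ := H
  have hq : 0 < w ^ 2 := by positivity
  let f : ℕ → ℕ := fun v => 1 + v + w ^ 2 * (h - 1 - φ v)
  refine ⟨V.image f, ?_, ?_, ?_⟩
  · intro x hx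
    simp only [Finset.mem_image] at hx
    obtain ⟨v, hv, rfl⟩ := hx
    have h1 := l v hv
    have h2 := r v hv
    simp only [Finset.mem_Icc]
    refine ⟨by simp only [f]; omega, ?_⟩
    calc f v ≤ w ^ 2 + w ^ 2 * (h - 1 - φ v) := by simp only [f]; omega
      _ = w ^ 2 * (h - 1 - φ v + 1) := by ring
      _ ≤ w ^ 2 * h := Nat.mul_le_mul_left _ (by omega)
  · rw [Finset.card_image_of_injOn, c]
    intro u hu v hv huv
    simp only [f] at huv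
    have h1 := l u hu
    have h2 := l v hv
    have h3 : u + w ^ 2 * (h - 1 - φ u) = v + w ^ 2 * (h - 1 - φ v) := by omega
    have h4 := congrArg (· % w ^ 2) h3
    simpa [Nat.add_mul_mod_self_left, Nat.mod_eq_of_lt h1, Nat.mod_eq_of_lt h2] using h4
  · intro a ha b hb n hn hab
    simp only [Finset.mem_image] at ha hb
    obtain ⟨v, hv, rfl⟩ := ha
    obtain ⟨u, hu, rfl⟩ := hb
    have h1 := l u hu
    have h2 := l v hv
    have hpos : 0 < n ^ 2 := by positivity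
    by_cases huv : u = v
    · subst huv
      rw [sub_self] at hab
      omega
    · have hd : (w : ℤ) ^ 2 ∣ (v : ℤ) - u - n ^ 2 := by
        rw [← hab]
        simp only [f]
        push_cast
        exact ⟨((h - 1 - φ u : ℕ) : ℤ) - ((h - 1 - φ v : ℕ) : ℤ), by ring⟩
      have h3 := m u hu v hv huv n hd
      have h4 := r v hv
      -- then f v < f u
      have h5 : f v < f u := by
        simp only [f]
        have h6 : (h - 1 - φ v) + 1 ≤ (h - 1 - φ u) := by omega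
        have h7 : w ^ 2 * ((h - 1 - φ v) + 1) ≤ w ^ 2 * (h - 1 - φ u) := Nat.mul_le_mul_left _ h6
        have h8 : w ^ 2 * ((h - 1 - φ v) + 1) = w ^ 2 * (h - 1 - φ v) + w ^ 2 := by ring
        omega
      have : ((f v : ℕ) : ℤ) < f u := by exact_mod_cast h5
      omega

/-- Asymptotic consequence. -/
theorem SqUnit.asymp {w A h : ℕ} (hw : 0 < w) (hh : 1 < w ^ 2 * h) (H : SqUnit w A h) (p q : ℕ)
    (hq : 0 < q) (hpq : (w ^ 2 * h) ^ p ≤ A ^ q) :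
    ∃ c : ℝ, 0 < c ∧ ∀ N : ℕ, 1 ≤ N → ∃ S : Finset ℕ, S ⊆ Finset.Icc 1 N ∧
      (∀ a ∈ S, ∀ b ∈ S, ∀ n : ℤ, n ≠ 0 → (a : ℤ) - b ≠ n ^ 2) ∧
      c * (N : ℝ) ^ ((p : ℝ) / q) ≤ (S.card : ℝ) := by
  set B := w ^ 2 * h with hB
  have hB0 : (0 : ℝ) < B := by exact_mod_cast (by omega : 0 < B)
  refine ⟨((B : ℝ) ^ ((p : ℝ) / q))⁻¹, by positivity, ?_⟩
  intro N hN
  obtain ⟨S, hS1, hS2, hS3⟩ := SqUnit.toSet (pow_pos hw _) (H.pow hw (Nat.log B N))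
  have hlog : (w ^ (Nat.log B N)) ^ 2 * h ^ (Nat.log B N) = B ^ (Nat.log B N) := by
    rw [hB]; ring
  have hle : B ^ (Nat.log B N) ≤ N := Nat.pow_log_le_self B (by omega)
  have hlt : N < B ^ (Nat.log B N + 1) := Nat.lt_pow_succ_log_self hh N
  refine ⟨S, hS1.trans (Finset.Icc_subset_Icc_right (by rw [hlog]; exact hle)), hS3, ?_⟩
  rw [hS2]
  have hq' : (0 : ℝ) < q := by exact_mod_cast hq
  have hA : (B : ℝ) ^ ((p : ℝ) / q) ≤ A := by
    have h1 : (B : ℝ) ^ (p : ℝ) ≤ (A : ℝ) ^ (q : ℝ) := by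
      rw [Real.rpow_natCast, Real.rpow_natCast]; exact_mod_cast hpq
    have h2 := Real.rpow_le_rpow (by positivity) h1 (by positivity : (0 : ℝ) ≤ 1 / q)
    rw [← Real.rpow_mul (by positivity), ← Real.rpow_mul (by positivity)] at h2
    have e1 : (p : ℝ) * (1 / q) = p / q := by ring
    have e2 : (q : ℝ) * (1 / q) = 1 := by field_simp
    rw [e1, e2, Real.rpow_one] at h2
    exact h2
  have h3 : (N : ℝ) ^ ((p : ℝ) / q) ≤ ((B : ℝ) ^ (Nat.log B N + 1)) ^ ((p : ℝ) / q) := by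
    apply Real.rpow_le_rpow (by positivity) _ (by positivity)
    exact_mod_cast hlt.le
  have h4 : ((B : ℝ) ^ (Nat.log B N + 1)) ^ ((p : ℝ) / q) =
      ((B : ℝ) ^ ((p : ℝ) / q)) ^ (Nat.log B N) * (B : ℝ) ^ ((p : ℝ) / q) := by
    rw [← pow_succ, ← Real.rpow_natCast, ← Real.rpow_natCast, ← Real.rpow_mul hB0.le,
      ← Real.rpow_mul hB0.le, mul_comm]
  rw [h4] at h3
  have h5 : ((B : ℝ) ^ ((p : ℝ) / q)) ^ (Nat.log B N) ≤ (A : ℝ) ^ (Nat.log B N) :=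
    pow_le_pow_left₀ (by positivity) hA _
  have hpos : 0 < (B : ℝ) ^ ((p : ℝ) / q) := by positivity
  push_cast
  calc ((B : ℝ) ^ ((p : ℝ) / q))⁻¹ * (N : ℝ) ^ ((p : ℝ) / q)
      ≤ ((B : ℝ) ^ ((p : ℝ) / q))⁻¹ * (((B : ℝ) ^ ((p : ℝ) / q)) ^ (Nat.log B N) * (B : ℝ) ^ ((p : ℝ) / q)) :=
        mul_le_mul_of_nonneg_left h3 (by positivity)
    _ = ((B : ℝ) ^ ((p : ℝ) / q)) ^ (Nat.log B N) := by field_simp
    _ ≤ (A : ℝ) ^ (Nat.log B N) := h5

end Vale.Agent.P042
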