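import Mathlib
import Vale.Agent.P042.Units

namespace Vale.Agent.P042

theorem sqfree_of_prime {p : ℕ} (hp : p.Prime) : Squarefree p := Irreducible.squarefree hp

/-- rank function read off from a list of digits -/
def rankIn (l : List (ℕ × ℕ)) (v : ℕ) : ℕ := ((l.find? (fun p => p.1 == v)).map Prod.snd).getD 0

theorem chain_unit (M h : ℕ) (hM : Squarefree M) (l : List (ℕ × ℕ))
    (hnd : (l.map Prod.fst).Nodup)
    (hlt : ∀ v ∈ l.map Prod.fst, v < M ∧ rankIn l v < h)
    (H : ∀ u ∈ l.map Prod.fst, ∀ v ∈ l.map Prod.fst, ∀ z < M,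
      (v + (M - u)) % M = z ^ 2 % M → u = v ∨ rankIn l u < rankIn l v) :
    SqUnit M (l.length * M) h := by
  have := SqUnit.ofSquarefree M h hM (l.map Prod.fst).toFinset (rankIn l)
    (fun v hv => (hlt v (by simpa using hv)).1) (fun v hv => (hlt v (by simpa using hv)).2)
    (fun u hu v hv => H u (by simpa using hu) v (by simpa using hv))
  rw [List.toFinset_card_of_nodup hnd, List.length_map] at this
  exact this

theorem unit2 : SqUnit 4 10 6 := by
  refine ⟨{2, 4, 5, 7, 8, 10, 11, 12, 13, 15},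
    rankIn [(2,0),(4,2),(5,5),(7,0),(8,3),(10,0),(11,1),(12,4),(13,5),(15,2)], by decide, by decide, by decide, ?_⟩
  have key : ∀ u ∈ ({2, 4, 5, 7, 8, 10, 11, 12, 13, 15} : Finset ℕ), ∀ v ∈ ({2, 4, 5, 7, 8, 10, 11, 12, 13, 15} : Finset ℕ),
      ∀ z < 16, (v + (16 - u)) % 16 = z ^ 2 % 16 → u = v ∨
      rankIn [(2,0),(4,2),(5,5),(7,0),(8,3),(10,0),(11,1),(12,4),(13,5),(15,2)] u <
      rankIn [(2,0),(4,2),(5,5),(7,0),(8,3),(10,0),(11,1),(12,4),(13,5),(15,2)] v := by
    decide +kernel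
  have hlt : ∀ u ∈ ({2, 4, 5, 7, 8, 10, 11, 12, 13, 15} : Finset ℕ), u < 16 := by decide
  intro u hu v hv huv z hz
  have hz16 : (z % 16).toNat < 16 := by omega
  have hzc : (((z % 16).toNat : ℕ) : ℤ) = z % 16 := by omega
  have hall : (v + (16 - u)) % 16 = (z % 16).toNat ^ 2 % 16 := by
    have h1 := hlt u hu
    have hh : ((v + (16 - u) : ℕ) : ℤ) ≡ (((z % 16).toNat ^ 2 : ℕ) : ℤ) [ZMOD (16 : ℕ)] := by
      rw [Int.modEq_iff_dvd]
      push_cast [hzc, Nat.cast_sub h1.le]
      have e : z % 16 = z - 16 * (z / 16) := Int.emod_def z 16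
      rw [e]
      have e5 : (z - 16 * (z / 16)) ^ 2 - ((v : ℤ) + (16 - u)) =
        -((v : ℤ) - u - z ^ 2) + 16 * (-2 * z * (z / 16) + 16 * (z / 16) ^ 2 - 1) := by
        ring
      rw [e5]
      refine dvd_add ((dvd_neg).2 ?_) (Dvd.intro _ rfl)
      norm_num at hz
      exact hz
    exact Int.natCast_modEq_iff.1 hh
  rcases key u hu v hv _ hz16 hall with h | h
  · exact absurd h huv
  · exact h

theorem unit3 : SqUnit 3 6 2 :=
  chain_unit 3 2 (sqfree_of_prime (by norm_num)) [(0,0),(1,1)] (by decide) (by decide) (by decide +kernel)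

theorem unit7 : SqUnit 7 21 3 :=
  chain_unit 7 3 (sqfree_of_prime (by norm_num)) [(0,0),(1,1),(2,2)] (by decide) (by decide) (by decide +kernel)

theorem unit11 : SqUnit 11 44 4 :=
  chain_unit 11 4 (sqfree_of_prime (by norm_num)) [(0,0),(1,1),(4,2),(5,3)] (by decide) (by decide) (by decide +kernel)

theorem unit19 : SqUnit 19 95 5 :=
  chain_unit 19 5 (sqfree_of_prime (by norm_num)) [(0,0),(1,1),(17,2),(7,3),(5,4)] (by decide) (by decide) (by decide +kernel)

theorem unit31 : SqUnit 31 217 7 :=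
  chain_unit 31 7 (sqfree_of_prime (by norm_num)) [(0,0),(1,1),(8,2),(5,3),(2,4),(9,5),(10,6)] (by decide) (by decide) (by decide +kernel)

theorem unit43 : SqUnit 43 301 7 :=
  chain_unit 43 7 (sqfree_of_prime (by norm_num)) [(0,0),(1,1),(10,2),(16,3),(41,4),(14,5),(11,6)] (by decide) (by decide) (by decide +kernel)

theorem unit59 : SqUnit 59 531 9 :=
  chain_unit 59 9 (sqfree_of_prime (by norm_num)) [(0,0),(1,1),(28,2),(17,3),(22,4),(4,5),(26,6),(20,7),(29,8)] (by decide) (by decide) (by decide +kernel)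

theorem unit71 : SqUnit 71 639 9 :=
  chain_unit 71 9 (sqfree_of_prime (by norm_num)) [(0,0),(1,1),(37,2),(20,3),(6,4),(30,5),(9,6),(49,7),(38,8)] (by decide) (by decide) (by decide +kernel)

theorem unit103 : SqUnit 103 1133 11 :=
  chain_unit 103 11 (sqfree_of_prime (by norm_num)) [(0,0),(1,1),(64,2),(29,3),(59,4),(92,5),(2,6),(61,7),(17,8),(93,9),(19,10)] (by decide) (by decide) (by decide +kernel)

theorem unit115 : SqUnit 115 1380 6 := by
  have hsq : Squarefree 115 := by
    have : (115 : ℕ) = 5 * 23 := by norm_num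
    rw [this, Nat.squarefree_mul (by norm_num)]
    exact ⟨sqfree_of_prime (by norm_num), sqfree_of_prime (by norm_num)⟩
  exact chain_unit 115 6 hsq [(1,1),(26,4),(34,2),(38,3),(56,2),(60,3),(68,1),(93,4),(97,5),(100,0),(109,5),(112,0)] (by decide) (by decide) (by decide +kernel)

end Vale.Agent.P042
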