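import Mathlib
import Vale.Agent.P042.Asymp
import Vale.Agent.P042.Base

namespace Vale.Agent.P042

/-- the data `(w, A, h, exponent)` of the towers used -/
def towers : List (ℕ × ℕ × ℕ × ℕ) :=
  [(4, 10, 6, 335), (3, 6, 2, 867), (7, 21, 3, 546), (11, 44, 4, 433), (19, 95, 5, 373),
   (31, 217, 7, 308), (43, 301, 7, 307), (59, 531, 9, 273), (71, 639, 9, 272),
   (103, 1133, 11, 249), (115, 1380, 6, 334)]

def prodW (l : List (ℕ × ℕ × ℕ × ℕ)) : ℕ := (l.map (fun e => e.1 ^ e.2.2.2)).prod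
def prodA (l : List (ℕ × ℕ × ℕ × ℕ)) : ℕ := (l.map (fun e => e.2.1 ^ e.2.2.2)).prod
def sumH (l : List (ℕ × ℕ × ℕ × ℕ)) : ℕ := (l.map (fun e => e.2.2.1 ^ e.2.2.2)).sum

theorem prodW_pos (l : List (ℕ × ℕ × ℕ × ℕ)) (h : ∀ e ∈ l, 0 < e.1) : 0 < prodW l := by
  unfold prodW
  apply List.prod_pos
  intro a ha
  simp only [List.mem_map] at ha
  obtain ⟨e, he, rfl⟩ := ha
  exact pow_pos (h e he) _

theorem coprime_prodW (w : ℕ) (l : List (ℕ × ℕ × ℕ × ℕ)) (h : ∀ e ∈ l, Nat.Coprime w e.1) :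
    Nat.Coprime w (prodW l) := by
  induction l with
  | nil => simp [prodW]
  | cons e l ih =>
    have h1 : prodW (e :: l) = e.1 ^ e.2.2.2 * prodW l := by simp [prodW]
    rw [h1]
    exact Nat.Coprime.mul_right (Nat.Coprime.pow_right _ (h e (by simp)))
      (ih (fun e' he' => h e' (by simp [he'])))

theorem SqUnit.list (l : List (ℕ × ℕ × ℕ × ℕ))
    (h1 : ∀ e ∈ l, 0 < e.1 ∧ SqUnit e.1 e.2.1 e.2.2.1)
    (h2 : l.Pairwise (fun e f => Nat.Coprime e.1 f.1)) :
    SqUnit (prodW l) (prodA l) (sumH l + 1) := by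
  induction l with
  | nil => simpa [prodW, prodA, sumH] using SqUnit.one
  | cons e l ih =>
    rw [List.pairwise_cons] at h2
    have i1 := ih (fun e' he' => h1 e' (by simp [he'])) h2.2
    obtain ⟨p1, u1⟩ := h1 e (by simp)
    have u2 := u1.pow p1 e.2.2.2
    have hc : Nat.Coprime (e.1 ^ e.2.2.2) (prodW l) :=
      Nat.Coprime.pow_left _ (coprime_prodW _ _ h2.1)
    have := SqUnit.crt (pow_pos p1 _) (prodW_pos l (fun e' he' => (h1 e' (by simp [he'])).1)) hc u2 i1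
    have e1 : prodW (e :: l) = e.1 ^ e.2.2.2 * prodW l := by simp [prodW]
    have e2 : prodA (e :: l) = e.2.1 ^ e.2.2.2 * prodA l := by simp [prodA]
    have e3 : sumH (e :: l) + 1 = e.2.2.1 ^ e.2.2.2 + (sumH l + 1) := by simp [sumH]; ring
    rw [e1, e2, e3]
    exact this

theorem towers_unit : SqUnit (prodW towers) (prodA towers) (sumH towers + 1) := by
  apply SqUnit.list
  · intro e he
    simp only [towers, List.mem_cons, List.not_mem_nil, or_false] at he
    rcases he with rfl | rfl | rfl | rfl | rfl | rfl | rfl | rfl | rfl | rfl | rfl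
    · exact ⟨by norm_num, unit2⟩
    · exact ⟨by norm_num, unit3⟩
    · exact ⟨by norm_num, unit7⟩
    · exact ⟨by norm_num, unit11⟩
    · exact ⟨by norm_num, unit19⟩
    · exact ⟨by norm_num, unit31⟩
    · exact ⟨by norm_num, unit43⟩
    · exact ⟨by norm_num, unit59⟩
    · exact ⟨by norm_num, unit71⟩
    · exact ⟨by norm_num, unit103⟩
    · exact ⟨by norm_num, unit115⟩
  · decide +kernel

theorem towers_pos : 0 < prodW towers := prodW_pos _ (by decide)

theorem towers_big : 1 < prodW towers ^ 2 * (sumH towers + 1) := by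
  decide +kernel

theorem towers_ineq :
    (prodW towers ^ 2 * (sumH towers + 1)) ^ 1513 ≤ prodA towers ^ 2000 := by
  decide +kernel

theorem main : ∃ c : ℝ, 0 < c ∧ ∀ N : ℕ, 1 ≤ N → ∃ S : Finset ℕ, S ⊆ Finset.Icc 1 N ∧
      (∀ a ∈ S, ∀ b ∈ S, ∀ n : ℤ, n ≠ 0 → (a : ℤ) - b ≠ n ^ 2) ∧
      c * (N : ℝ) ^ ((1513 : ℝ) / 2000) ≤ (S.card : ℝ) := by
  have := SqUnit.asymp towers_pos towers_big towers_unit 1513 2000 (by norm_num) towers_ineq
  exact_mod_cast this

end Vale.Agent.P042
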