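import Mathlib
import Vale.Agent.P042.Big

namespace Vale.Agent.P042

open Polynomial

/-- Version for `a * g ^ 2`. -/
theorem main_general (a : ℤ) (ha : 0 < a) (g : Polynomial ℤ) :
    ∃ c : ℝ, 0 < c ∧ ∀ N : ℕ, 1 ≤ N → ∃ S : Finset ℕ, S ⊆ Finset.Icc 1 N ∧
      (∀ x ∈ S, ∀ y ∈ S, ∀ n : ℕ, 1 ≤ n → (x : ℤ) - y = (C a * g ^ 2).eval (n : ℤ) →
        (C a * g ^ 2).eval (n : ℤ) = 0) ∧
      c * (N : ℝ) ^ (0.7565 : ℝ) ≤ (S.card : ℝ) := by
  obtain ⟨c, hc, H⟩ := main
  lift a to ℕ using ha.le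
  have ha' : 0 < a := by exact_mod_cast ha
  have ha1 : (1 : ℝ) ≤ a := by exact_mod_cast ha'
  set e : ℝ := 0.7565 with he
  have he' : ((1513 : ℝ) / 2000) = e := by rw [he]; norm_num
  rw [he'] at H
  have hepos : 0 ≤ e := by rw [he]; norm_num
  have h2a : (0 : ℝ) < 2 * a := by positivity
  refine ⟨min c 1 * ((2 * a : ℝ) ^ e)⁻¹, by positivity, ?_⟩
  intro N hN
  have hN' : (1 : ℝ) ≤ N := by exact_mod_cast hN
  by_cases hNa : N < a
  · refine ⟨{1}, by simpa using hN, ?_, ?_⟩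
    · intro x hx y hy n _ h
      simp only [Finset.mem_singleton] at hx hy
      rw [hx, hy, sub_self] at h
      exact h.symm
    · rw [Finset.card_singleton, Nat.cast_one]
      have h1 : (N : ℝ) ^ e ≤ (2 * a : ℝ) ^ e := by
        apply Real.rpow_le_rpow (by positivity) _ hepos
        have : (N : ℝ) ≤ a := by exact_mod_cast hNa.le
        linarith
      have h2 : min c 1 ≤ 1 := min_le_right _ _
      have h3 : (0 : ℝ) < (2 * a : ℝ) ^ e := by positivity
      calc min c 1 * ((2 * a : ℝ) ^ e)⁻¹ * (N : ℝ) ^ e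
          ≤ 1 * ((2 * a : ℝ) ^ e)⁻¹ * (2 * a : ℝ) ^ e := by gcongr
        _ = 1 := by field_simp
  · push Not at hNa
    have hNa1 : 1 ≤ N / a := (Nat.one_le_div_iff ha').2 hNa
    obtain ⟨S, hS1, hS2, hS3⟩ := H (N / a) hNa1
    have hinj : Set.InjOn (fun x => a * x) (S : Set ℕ) := by
      intro x _ y _ h
      exact Nat.eq_of_mul_eq_mul_left ha' h
    refine ⟨S.image (fun x => a * x), ?_, ?_, ?_⟩
    · intro y hy
      simp only [Finset.mem_image] at hy
      obtain ⟨x, hx, rfl⟩ := hy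
      have := Finset.mem_Icc.1 (hS1 hx)
      rw [Finset.mem_Icc]
      refine ⟨Nat.mul_pos ha' this.1, ?_⟩
      calc a * x ≤ a * (N / a) := Nat.mul_le_mul_left _ this.2
        _ ≤ N := Nat.mul_div_le N a
    · intro x hx y hy n _ h
      simp only [Finset.mem_image] at hx hy
      obtain ⟨u, hu, rfl⟩ := hx
      obtain ⟨v, hv, rfl⟩ := hy
      by_contra hne
      simp only [eval_mul, eval_C, eval_pow] at h hne
      have hg : g.eval (n : ℤ) ≠ 0 := by
        intro h0; apply hne; rw [h0]; ring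
      apply hS2 u hu v hv (g.eval (n : ℤ)) hg
      push_cast at h
      have ha0 : (a : ℤ) ≠ 0 := by exact_mod_cast ha'.ne'
      apply mul_left_cancel₀ ha0
      rw [← h]; ring
    · rw [Finset.card_image_of_injOn hinj]
      refine le_trans ?_ hS3
      have hfl : (N : ℝ) ≤ 2 * a * ((N / a : ℕ) : ℝ) := by
        have h1 : N < a * (N / a) + a := by
          have := Nat.lt_mul_div_succ N ha'
          linarith [this, Nat.mul_succ a (N / a)]
        have h2 : a * (N / a) + a ≤ 2 * a * (N / a) := by nlinarith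
        have h3 : N ≤ 2 * a * (N / a) := by omega
        exact_mod_cast h3
      have h1 : (N : ℝ) ^ e ≤ (2 * a : ℝ) ^ e * ((N / a : ℕ) : ℝ) ^ e := by
        rw [← Real.mul_rpow (by positivity) (by positivity)]
        exact Real.rpow_le_rpow (by positivity) hfl hepos
      have h3 : (0 : ℝ) < (2 * a : ℝ) ^ e := by positivity
      calc min c 1 * ((2 * a : ℝ) ^ e)⁻¹ * (N : ℝ) ^ e
          ≤ c * ((2 * a : ℝ) ^ e)⁻¹ * ((2 * a : ℝ) ^ e * ((N / a : ℕ) : ℝ) ^ e) := by
            gcongr; exact min_le_left _ _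
        _ = c * ((N / a : ℕ) : ℝ) ^ e := by field_simp

end Vale.Agent.P042
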